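import Vale.Agent.N057G.Base

/-!
# A model lemma: finite subsets of torsion-free groups with small `2A - 2A` live in short intervals
-/

open Finset Filter MeasureTheory
open scoped Pointwise TensorProduct

namespace Vale.Agent.N057G

variable {G : Type*} [AddCommGroup G] [IsAddTorsionFree G]

theorem exists_hom (D : Finset G) (hD : ∀ x ∈ D, x ≠ 0) :
    ∃ φ : G →+ ℚ, ∀ x ∈ D, φ x ≠ 0 := by
  obtain ⟨f, hf⟩ := Module.exists_dual_forall_apply_ne_zero (K := ℚ) (M := ℚ ⊗[ℤ] G)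
    (fun x : D => TensorProduct.mk ℤ ℚ G 1 x) fun x hx => by
      obtain ⟨s, hs⟩ := (IsLocalizedModule.eq_zero_iff (nonZeroDivisors ℤ) _).mp hx
      rcases smul_eq_zero.mp (show (s : ℤ) • (x : G) = 0 from hs) with h | h
      · exact nonZeroDivisors.coe_ne_zero s h
      · exact hD x x.2 h
  exact ⟨f.toAddMonoidHom.comp (TensorProduct.mk ℤ ℚ G 1).toAddMonoidHom,
    fun x hx => hf ⟨x, hx⟩⟩

theorem exists_angle (D : Finset ℤ) (hD : ∀ m ∈ D, m ≠ 0) (δ : ℝ)
    (h : D.card * (2 * δ) < 1) :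
    ∃ t : ℝ, ∀ m ∈ D, ∀ n : ℤ, δ < |m * t - n| := by
  have h1 : volume (⋃ m ∈ D, (fun θ : UnitAddCircle => m • θ) ⁻¹' Metric.closedBall 0 δ) <
      volume (Set.univ : Set UnitAddCircle) := by
    refine (measure_biUnion_finset_le _ _).trans_lt ?_
    have h2 : ∀ m ∈ D, volume ((fun θ : UnitAddCircle => m • θ) ⁻¹' Metric.closedBall 0 δ) ≤
        ENNReal.ofReal (2 * δ) := by
      intro m hm
      rw [(Measure.measurePreserving_zsmul volume (hD m hm)).measure_preimage
        measurableSet_closedBall.nullMeasurableSet, AddCircle.volume_closedBall]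
      exact ENNReal.ofReal_le_ofReal (min_le_right _ _)
    refine (sum_le_card_nsmul _ _ _ h2).trans_lt ?_
    rw [UnitAddCircle.measure_univ, nsmul_eq_mul, ← ENNReal.ofReal_natCast,
      ← ENNReal.ofReal_mul (by positivity)]
    exact ENNReal.ofReal_lt_one.mpr h
  obtain ⟨θ, hθ⟩ : ∃ θ : UnitAddCircle,
      θ ∉ ⋃ m ∈ D, (fun θ : UnitAddCircle => m • θ) ⁻¹' Metric.closedBall 0 δ := by
    by_contra hn
    push Not at hn
    exact absurd (measure_mono fun θ _ => hn θ) (not_le.mpr h1)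
  obtain ⟨t, rfl⟩ := QuotientAddGroup.mk_surjective θ
  refine ⟨t, fun m hm n => lt_of_not_ge fun hle => hθ ?_⟩
  refine Set.mem_biUnion hm ?_
  rw [Set.mem_preimage, mem_closedBall_zero_iff]
  have h2 : (m • (t : UnitAddCircle)) = ((m * t - n : ℝ) : UnitAddCircle) := by
    have h3 : ((n : ℝ) : UnitAddCircle) = 0 := (AddCircle.coe_eq_zero_iff 1).mpr ⟨n, by simp⟩
    rw [AddCircle.coe_sub, h3, sub_zero, ← zsmul_eq_mul, AddCircle.coe_zsmul]
  rw [h2]
  exact QuotientAddGroup.norm_mk_le_norm.trans hle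

theorem exists_model [DecidableEq G] (A : Finset G) (N : ℕ) (hN : 4 * (2 • A - 2 • A).card < N) :
    ∃ ψ : G → ℕ, (∀ x, ψ x < N) ∧
      ∀ x ∈ A, ∀ y ∈ A, ∀ z ∈ A, ∀ w ∈ A, ψ x + ψ y = ψ z + ψ w → x + y = z + w := by
  set D := (2 • A - 2 • A).erase 0 with hD
  obtain ⟨φ, hφ⟩ := exists_hom D fun x hx => (mem_erase.mp hx).1
  set q : ℕ := ∏ x ∈ D, (φ x).den with hq
  have hq0 : q ≠ 0 := prod_ne_zero_iff.mpr fun x _ => (φ x).den_nz
  have hm : ∀ x ∈ D, ∃ m : ℤ, (m : ℚ) = q * φ x := by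
    intro x hx
    obtain ⟨r, hr⟩ : (φ x).den ∣ q := dvd_prod_of_mem _ hx
    refine ⟨r * (φ x).num, ?_⟩
    rw [hr]
    push_cast
    rw [← Rat.mul_den_eq_num]
    ring
  choose! m hm using hm
  have hN0 : (0 : ℝ) < N := by exact_mod_cast (Nat.zero_le _).trans_lt hN
  obtain ⟨t, ht⟩ := exists_angle (D.image m) (fun n hn => by
      obtain ⟨x, hx, rfl⟩ := mem_image.mp hn
      intro h0
      have := hm x hx
      rw [h0] at this
      exact mul_ne_zero (Nat.cast_ne_zero.mpr hq0) (hφ x hx) (by exact_mod_cast this.symm))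
    (2 / N) (by
      have h1 : (D.image m).card ≤ (2 • A - 2 • A).card := card_image_le.trans card_erase_le
      have h2 : (4 * (D.image m).card : ℝ) < N := by
        exact_mod_cast (Nat.mul_le_mul_left 4 h1).trans_lt hN
      rw [show ((D.image m).card : ℝ) * (2 * (2 / N)) = 4 * (D.image m).card / N by ring,
        div_lt_one hN0]
      exact h2)
  let r : G → ℝ := fun x => (q * φ x : ℚ) * t
  have hf : ∀ x, 0 ≤ (N : ℝ) * Int.fract (r x) := fun x =>
    mul_nonneg hN0.le (Int.fract_nonneg _)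
  refine ⟨fun x => ⌊(N : ℝ) * Int.fract (r x)⌋₊, fun x => ?_, fun x hx y hy z hz w hw hh => ?_⟩
  · rw [Nat.floor_lt (hf x)]
    exact mul_lt_of_lt_one_right hN0 (Int.fract_lt_one _)
  · by_contra hne
    have h1 : x + y - (z + w) ∈ D := by
      refine mem_erase.mpr ⟨sub_ne_zero.mpr hne, ?_⟩
      rw [two_nsmul]
      exact sub_mem_sub (add_mem_add hx hy) (add_mem_add hz hw)
    have h2 := ht _ (mem_image_of_mem m h1) (⌊r x⌋ + ⌊r y⌋ - ⌊r z⌋ - ⌊r w⌋)
    have h3 : (m (x + y - (z + w)) : ℝ) * t = r x + r y - r z - r w := by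
      have h4 : (m (x + y - (z + w)) : ℝ) = ((q * φ (x + y - (z + w)) : ℚ) : ℝ) := by
        rw [← hm _ h1]; simp
      rw [h4]
      simp only [r, map_sub, map_add]
      push_cast
      ring
    have h4 : (m (x + y - (z + w)) : ℝ) * t - (⌊r x⌋ + ⌊r y⌋ - ⌊r z⌋ - ⌊r w⌋ : ℤ) =
        Int.fract (r x) + Int.fract (r y) - Int.fract (r z) - Int.fract (r w) := by
      rw [h3]
      simp only [Int.fract]
      push_cast
      ring
    rw [h4] at h2
    have hh' : ((⌊(N : ℝ) * Int.fract (r x)⌋₊ : ℝ) + ⌊(N : ℝ) * Int.fract (r y)⌋₊) =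
        ⌊(N : ℝ) * Int.fract (r z)⌋₊ + ⌊(N : ℝ) * Int.fract (r w)⌋₊ := by exact_mod_cast hh
    have a1 := Nat.floor_le (hf x)
    have a2 := Nat.floor_le (hf y)
    have a3 := Nat.floor_le (hf z)
    have a4 := Nat.floor_le (hf w)
    have b1 := Nat.lt_floor_add_one ((N : ℝ) * Int.fract (r x))
    have b2 := Nat.lt_floor_add_one ((N : ℝ) * Int.fract (r y))
    have b3 := Nat.lt_floor_add_one ((N : ℝ) * Int.fract (r z))
    have b4 := Nat.lt_floor_add_one ((N : ℝ) * Int.fract (r w))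
    rw [div_lt_iff₀ hN0, ← abs_of_pos hN0, ← abs_mul, lt_abs] at h2
    rcases h2 with h2 | h2 <;> nlinarith

/-- A set without `k`-term progressions in a torsion-free group has at most `r_k(N)` elements
whenever `N > 4 |2A - 2A|`. -/
theorem card_le_of_model [DecidableEq G] {k N₀ : ℕ} {c : ℝ} (h : RB k c N₀) (hk : 2 ≤ k)
    (A : Finset G) (hA : ∀ a d : G, d ≠ 0 → ¬ ∀ i : ℕ, i < k → a + i • d ∈ A)
    (N : ℕ) (hN₀ : N₀ ≤ N) (hN : 4 * (2 • A - 2 • A).card < N) :
    (A.card : ℝ) ≤ N * Real.exp (-(Real.log N ^ c)) := by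
  obtain ⟨ψ, h1, h2⟩ := exists_model A N hN
  have hinj : Set.InjOn (fun x => ψ x + 1) A := fun x hx y hy hxy =>
    add_right_cancel (h2 x hx x hx y hy x hx (by
      have : ψ x + 1 = ψ y + 1 := hxy
      omega))
  rw [← card_image_of_injOn hinj]
  refine h N hN₀ _ (fun n hn => ?_) fun a d hd hh => ?_
  · obtain ⟨x, -, rfl⟩ := mem_image.mp hn
    exact mem_Icc.mpr ⟨Nat.le_add_left _ _, h1 x⟩
  · have h3 : ∀ i : ℕ, i < k → ∃ x ∈ A, ψ x + 1 = a + i * d := fun i hi => mem_image.mp (hh i hi)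
    choose! x hx hx' using h3
    have h4 : ∀ i : ℕ, i < k → x i = x 0 + i • (x 1 - x 0) := by
      intro i
      induction i with
      | zero => simp
      | succ i ih =>
        intro hi
        have h5 := h2 _ (hx (i + 1) hi) _ (hx 0 (by omega)) _ (hx i (by omega)) _
          (hx 1 (by omega)) (by
            have a1 := hx' (i + 1) hi
            have a2 := hx' 0 (by omega)
            have a3 := hx' i (by omega)
            have a4 := hx' 1 (by omega)
            rw [add_mul] at a1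
            omega)
        rw [eq_sub_of_add_eq h5, ih (by omega), succ_nsmul]
        abel
    refine hA (x 0) (x 1 - x 0) (fun h0 => ?_) fun i hi => h4 i hi ▸ hx i hi
    have a2 := hx' 0 (by omega)
    have a4 := hx' 1 (by omega)
    rw [sub_eq_zero.mp h0] at a4
    omega

end Vale.Agent.N057G
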