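import Mathlib

/-!
# The bound on `r_k(N)` as a hypothesis; slicing along a direction; dyadic summation
-/

open Finset Filter

namespace Vale.Agent.N057G

/-- The bound `r_k(N) ≤ N exp(-(log N)^c)` for `N ≥ N₀`. -/
def RB (k : ℕ) (c : ℝ) (N₀ : ℕ) : Prop :=
  ∀ N : ℕ, N₀ ≤ N → ∀ A : Finset ℕ, A ⊆ Finset.Icc 1 N →
    (∀ a d : ℕ, 0 < d → ¬ ∀ i : ℕ, i < k → a + i * d ∈ A) →
    (A.card : ℝ) ≤ N * Real.exp (-(Real.log N ^ c))

/-- The density bound at every scale. -/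
noncomputable def rho (c : ℝ) (N₀ N : ℕ) : ℝ :=
  if N₀ ≤ N then Real.exp (-(Real.log N ^ c)) else 1

theorem rho_nonneg (c : ℝ) (N₀ N : ℕ) : 0 ≤ rho c N₀ N := by
  unfold rho
  split_ifs
  · positivity
  · exact zero_le_one

variable {k N₀ : ℕ} {c : ℝ}

theorem RB.le_rho (h : RB k c N₀) (N : ℕ) (A : Finset ℕ) (hA : A ⊆ Finset.Icc 1 N)
    (hf : ∀ a d : ℕ, 0 < d → ¬ ∀ i : ℕ, i < k → a + i * d ∈ A) :
    (A.card : ℝ) ≤ N * rho c N₀ N := by
  unfold rho
  split_ifs with hN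
  · exact h N hN A hA hf
  · have := card_le_card hA
    rw [Nat.card_Icc, Nat.add_sub_cancel] at this
    rw [mul_one]
    exact_mod_cast this

/-- Slicing along the lines of direction `v`. -/
theorem slice {G : Type*} [AddCommGroup G] (h : RB k c N₀) (v : G) (F B : Finset G) (M : ℕ)
    (hM : 0 < M)
    (hf : ∀ a : G, ∀ t : ℕ, 0 < t → ¬ ∀ i : ℕ, i < k → a + (i * t) • v ∈ F)
    (hB : ∀ a ∈ F, ∀ j : ℕ, j ≤ M → a - j • v ∈ B) :
    (F.card : ℝ) ≤ B.card * rho c N₀ M := by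
  classical
  have h1 : F.card * M ≤ ∑ x ∈ B, ((Icc 1 M).filter (fun j : ℕ => x + j • v ∈ F)).card := by
    rw [← card_sigma]
    have : F.card * M = (F ×ˢ Icc 1 M).card := by simp
    rw [this]
    refine card_le_card_of_injOn (fun p => ⟨p.1 - p.2 • v, p.2⟩) ?_ ?_
    · rintro ⟨a, j⟩ hp
      have hp' := mem_product.mp (mem_coe.mp hp)
      refine mem_coe.mpr (mem_sigma.mpr ⟨hB a hp'.1 j (mem_Icc.mp hp'.2).2, ?_⟩)
      refine mem_filter.mpr ⟨hp'.2, ?_⟩
      simpa using hp'.1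
    · rintro ⟨a, j⟩ - ⟨b, l⟩ - hpq
      simp only [Sigma.mk.injEq, heq_eq_eq] at hpq
      obtain ⟨h1, rfl⟩ := hpq
      simpa using h1
  have h2 : ∀ x ∈ B, (((Icc 1 M).filter (fun j : ℕ => x + j • v ∈ F)).card : ℝ) ≤
      M * rho c N₀ M := by
    intro x _
    refine h.le_rho M _ (filter_subset _ _) fun a d hd hh => hf (x + a • v) d hd fun i hi => ?_
    have := (mem_filter.mp (hh i hi)).2
    rwa [add_smul, ← add_assoc] at this
  have h3 : (F.card : ℝ) * M ≤ B.card * (M * rho c N₀ M) := by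
    have h4 : ((F.card * M : ℕ) : ℝ) ≤
        ((∑ x ∈ B, ((Icc 1 M).filter (fun j : ℕ => x + j • v ∈ F)).card : ℕ) : ℝ) := by
      exact_mod_cast h1
    push_cast at h4
    refine h4.trans ((sum_le_card_nsmul _ _ _ h2).trans ?_)
    rw [nsmul_eq_mul]
  have hM' : (0 : ℝ) < M := by exact_mod_cast hM
  refine le_of_mul_le_mul_right (a := (M : ℝ)) ?_ hM'
  linarith

theorem eventually_quad (hc : 0 < c) (A B : ℝ) :
    ∀ᶠ u : ℝ in atTop, A + B * u ^ (c / 2) ≤ u ^ c := by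
  have h1 := (tendsto_rpow_atTop (half_pos hc)).eventually_ge_atTop (|A| + |B| + 1)
  filter_upwards [h1, eventually_ge_atTop 0] with u hu hu0
  have h2 : u ^ c = u ^ (c / 2) * u ^ (c / 2) := by
    rw [← Real.rpow_add' hu0 (by linarith)]
    congr 1
    ring
  rw [h2]
  have h3 := le_abs_self A
  have h4 := le_abs_self B
  have h5 := abs_nonneg A
  have h6 := abs_nonneg B
  nlinarith

/-- The weight of a dyadic scale. -/
noncomputable def wt (c : ℝ) (N₀ j : ℕ) : ℝ :=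
  Real.exp (Real.log ((2 : ℝ) ^ (j + 1)) ^ (c / 2)) * rho c N₀ (2 ^ (j + 1))

theorem wt_nonneg (c : ℝ) (N₀ j : ℕ) : 0 ≤ wt c N₀ j :=
  mul_nonneg (Real.exp_pos _).le (rho_nonneg _ _ _)

theorem summable_wt (hc : 0 < c) (N₀ : ℕ) : Summable (wt c N₀) := by
  have hs : Summable (fun j : ℕ => 1 / ((j + 1 : ℕ) : ℝ) ^ 2) :=
    (summable_nat_add_iff 1).mpr (Real.summable_one_div_nat_pow.mpr (by norm_num))
  refine Summable.of_norm_bounded_eventually_nat hs ?_
  have hl2 : 0 < Real.log 2 := Real.log_pos (by norm_num)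
  have ht : Tendsto (fun j : ℕ => ((j + 1 : ℕ) : ℝ) * Real.log 2) atTop atTop :=
    (tendsto_natCast_atTop_atTop.comp (tendsto_add_atTop_nat 1)).atTop_mul_const hl2
  have hN : ∀ᶠ j : ℕ in atTop, N₀ ≤ 2 ^ (j + 1) := by
    filter_upwards [eventually_ge_atTop N₀] with j hj
    exact hj.trans ((Nat.le_succ j).trans Nat.lt_two_pow_self.le)
  filter_upwards [ht.eventually (eventually_quad hc 2 (1 + 4 / c)), hN] with j hj hjN
  rw [Real.norm_of_nonneg (wt_nonneg _ _ _)]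
  unfold wt rho
  rw [if_pos hjN, ← Real.exp_add]
  have h1 : Real.log ((2 : ℝ) ^ (j + 1)) = ((j + 1 : ℕ) : ℝ) * Real.log 2 := Real.log_pow _ _
  have h2 : Real.log ((2 ^ (j + 1) : ℕ) : ℝ) = ((j + 1 : ℕ) : ℝ) * Real.log 2 := by
    rw [← h1]; push_cast; rfl
  rw [h1, h2]
  set n : ℝ := ((j + 1 : ℕ) : ℝ) with hn
  have hn0 : 0 < n := by rw [hn]; positivity
  have h3 : Real.log (n * Real.log 2) ≤ (n * Real.log 2) ^ (c / 2) / (c / 2) :=
    Real.log_le_rpow_div (by positivity) (half_pos hc)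
  have h4 : -1 ≤ Real.log (Real.log 2) := by
    rw [Real.le_log_iff_exp_le hl2]
    have := Real.log_two_gt_d9
    have h5 := Real.exp_neg_one_lt_d9
    linarith
  rw [Real.log_mul hn0.ne' hl2.ne'] at h3
  have h5 : (n * Real.log 2) ^ (c / 2) / (c / 2) = 2 / c * (n * Real.log 2) ^ (c / 2) := by
    field_simp
  have h6 : 1 / n ^ 2 = Real.exp (-(2 * Real.log n)) := by
    rw [Real.exp_neg, show 2 * Real.log n = Real.log (n ^ 2) by simp, Real.exp_log (by positivity),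
      one_div]
  rw [h6, Real.exp_le_exp]
  have h7 : 4 / c = 2 * (2 / c) := by ring
  rw [h7] at hj
  nlinarith

/-- Dyadic summation. -/
theorem dyadic {X : Type*} (hc : 0 < c) (s : X → ℝ) (F : Finset X) (d : ℕ) (K : ℝ) (hK : 0 ≤ K)
    (h1 : ∀ a ∈ F, 1 ≤ s a)
    (h2 : ∀ j : ℕ, ∀ F' ⊆ F, (∀ a ∈ F', s a < 2 ^ (j + 1)) →
      (F'.card : ℝ) ≤ K * (2 ^ j) ^ d * rho c N₀ (2 ^ (j + 1))) :
    ∑ a ∈ F, Real.exp (Real.log (s a) ^ (c / 2)) / s a ^ d ≤ K * ∑' j, wt c N₀ j := by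
  classical
  set g : X → ℕ := fun a => Nat.log 2 ⌊s a⌋₊ with hg
  rw [← sum_fiberwise_of_maps_to (s := F) (t := F.image g) (g := g)
    (fun a ha => mem_image_of_mem g ha)]
  refine le_trans (sum_le_sum (g := fun j => K * wt c N₀ j) fun j _ => ?_) ?_
  · have hb : ∀ a ∈ F.filter (fun a => g a = j), (2 : ℝ) ^ j ≤ s a ∧ s a < 2 ^ (j + 1) := by
      intro a ha
      obtain ⟨haF, hj⟩ := mem_filter.mp ha
      have h3 := h1 a haF
      have h4 : ⌊s a⌋₊ ≠ 0 := (Nat.floor_pos.mpr h3).ne'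
      have h5 := Nat.pow_log_le_self 2 h4
      have h6 := Nat.lt_pow_succ_log_self (b := 2) (by norm_num) ⌊s a⌋₊
      have h7 : Nat.log 2 ⌊s a⌋₊ = j := hj
      rw [h7] at h5 h6
      constructor
      · have : ((2 ^ j : ℕ) : ℝ) ≤ s a := (Nat.le_floor_iff (by linarith)).mp h5
        exact_mod_cast this
      · have : s a < ((2 ^ (j + 1) : ℕ) : ℝ) := (Nat.floor_lt (by linarith)).mp h6
        exact_mod_cast this
    have h3 := h2 j _ (filter_subset _ _) fun a ha => (hb a ha).2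
    have h4 : ∀ a ∈ F.filter (fun a => g a = j),
        Real.exp (Real.log (s a) ^ (c / 2)) / s a ^ d ≤
          Real.exp (Real.log ((2 : ℝ) ^ (j + 1)) ^ (c / 2)) / (2 ^ j) ^ d := by
      intro a ha
      have h5 := h1 a (mem_filter.mp ha).1
      obtain ⟨h6, h7⟩ := hb a ha
      have h8 : 0 ≤ Real.log (s a) := Real.log_nonneg h5
      gcongr
    refine (sum_le_card_nsmul _ _ _ h4).trans ?_
    rw [nsmul_eq_mul]
    refine (mul_le_mul_of_nonneg_right h3 (by positivity)).trans (le_of_eq ?_)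
    unfold wt
    field_simp
  · rw [← mul_sum]
    exact mul_le_mul_of_nonneg_left
      ((summable_wt hc N₀).sum_le_tsum _ fun j _ => wt_nonneg _ _ _) hK

end Vale.Agent.N057G
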