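import Vale.Agent.N057G.Model
import Vale.Agent.P015.R2.H74.Bsg

/-!
# Sets without long progressions have small additive energy; linear equations and sumsets
-/

open Finset Filter
open scoped Pointwise

namespace Vale.Agent.N057G

section co

variable {α β U : Type*} [DecidableEq U]

/-- Number of coincidences `f p = g q`. -/
def co (P : Finset α) (Q : Finset β) (f : α → U) (g : β → U) : ℕ :=
  ((P ×ˢ Q).filter fun x => f x.1 = g x.2).card

theorem co_eq (P : Finset α) (Q : Finset β) (f : α → U) (g : β → U) (S : Finset U)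
    (hS : ∀ p ∈ P, f p ∈ S) :
    co P Q f g = ∑ u ∈ S, (P.filter fun p => f p = u).card * (Q.filter fun q => g q = u).card := by
  unfold co
  rw [card_eq_sum_card_fiberwise (f := fun x => f x.1) (t := S) fun x hx =>
    hS _ (mem_product.mp (mem_filter.mp (mem_coe.mp hx)).1).1]
  refine sum_congr rfl fun u _ => ?_
  rw [← card_product]
  congr 1
  ext x
  simp only [mem_filter, mem_product]
  constructor
  · rintro ⟨⟨⟨h1, h2⟩, h3⟩, h4⟩
    exact ⟨⟨h1, h4⟩, h2, h3 ▸ h4⟩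
  · rintro ⟨⟨h1, h2⟩, h3, h4⟩
    exact ⟨⟨⟨h1, h3⟩, h2.trans h4.symm⟩, h2⟩

theorem co_sq_le (P : Finset α) (Q : Finset β) (f : α → U) (g : β → U) :
    co P Q f g ^ 2 ≤ co P P f f * co Q Q g g := by
  have h1 : ∀ p ∈ P, f p ∈ P.image f ∪ Q.image g := fun p hp =>
    mem_union_left _ (mem_image_of_mem f hp)
  have h2 : ∀ q ∈ Q, g q ∈ P.image f ∪ Q.image g := fun q hq =>
    mem_union_right _ (mem_image_of_mem g hq)
  rw [co_eq P Q f g _ h1, co_eq P P f f _ h1, co_eq Q Q g g _ h2]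
  simpa only [sq] using sum_mul_sq_le_sq_mul_sq (P.image f ∪ Q.image g)
    (fun u => (P.filter fun p => f p = u).card) (fun u => (Q.filter fun q => g q = u).card)

theorem co_inj (Q : Finset β) (g : β → U) (hg : Function.Injective g) : co Q Q g g ≤ Q.card := by
  refine card_le_card_of_injOn (fun x => x.1)
    (fun x hx => (mem_product.mp (mem_filter.mp (mem_coe.mp hx)).1).1) fun x hx y hy hxy => ?_
  have h1 := hg (mem_filter.mp (mem_coe.mp hx)).2
  have h2 := hg (mem_filter.mp (mem_coe.mp hy)).2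
  have h3 : x.1 = y.1 := hxy
  exact Prod.ext h3 (h1 ▸ h2 ▸ h3)

theorem sq_le_image_mul_co (P : Finset α) (f : α → U) :
    P.card ^ 2 ≤ (P.image f).card * co P P f f := by
  have h1 : P.card ≤ co P (P.image f) f id := by
    refine card_le_card_of_injOn (fun p => (p, f p)) (fun p hp => ?_) fun p _ q _ hpq =>
      (Prod.ext_iff.mp hpq).1
    exact mem_coe.mpr (mem_filter.mpr ⟨mem_product.mpr ⟨hp, mem_image_of_mem f hp⟩, rfl⟩)
  refine (Nat.pow_le_pow_left h1 2).trans ((co_sq_le _ _ _ _).trans ?_)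
  rw [mul_comm]
  exact Nat.mul_le_mul_right _ (co_inj _ _ Function.injective_id)

end co

variable {G : Type*} [AddCommGroup G] [IsAddTorsionFree G] [DecidableEq G]

theorem co_diff_le (A : Finset G) {m : ℤ} (hm : m ≠ 0) :
    co (A ×ˢ A) (A ×ˢ A) (fun p => m • (p.1 - p.2)) (fun p => m • (p.1 - p.2)) ≤
      addEnergy A A := by
  refine card_le_card_of_injOn (fun x => (x.1, x.2.swap)) (fun x hx => ?_) fun x _ y _ hxy => ?_
  · obtain ⟨h1, h2⟩ := mem_filter.mp (mem_coe.mp hx)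
    obtain ⟨h3, h4⟩ := mem_product.mp h1
    refine mem_coe.mpr (mem_filter.mpr ⟨mem_product.mpr ⟨h3, mem_product.mpr
      (mem_product.mp h4).symm⟩, ?_⟩)
    have h5 : x.1.1 - x.1.2 = x.2.1 - x.2.2 := smul_right_injective G hm h2
    change x.1.1 + x.2.2 = x.1.2 + x.2.1
    rw [sub_eq_sub_iff_add_eq_add] at h5
    rw [h5, add_comm]
  · obtain ⟨h1, h2⟩ := Prod.ext_iff.mp hxy
    exact Prod.ext h1 (Prod.swap_injective h2)

theorem co_lin_le (A : Finset G) {m₁ m₂ : ℤ} (h₁ : m₁ ≠ 0) (h₂ : m₂ ≠ 0) :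
    co (A ×ˢ A) (A ×ˢ A) (fun p => m₁ • p.1 + m₂ • p.2) (fun p => m₁ • p.1 + m₂ • p.2) ≤
      addEnergy A A := by
  have h1 : co (A ×ˢ A) (A ×ˢ A) (fun p => m₁ • p.1 + m₂ • p.2) (fun p => m₁ • p.1 + m₂ • p.2) ≤
      co (A ×ˢ A) (A ×ˢ A) (fun p => m₁ • (p.1 - p.2)) (fun p => m₂ • (p.1 - p.2)) := by
    refine card_le_card_of_injOn (fun x => ((x.1.1, x.2.1), (x.2.2, x.1.2))) (fun x hx => ?_)
      fun x _ y _ hxy => ?_
    · obtain ⟨h1, h2⟩ := mem_filter.mp (mem_coe.mp hx)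
      simp only [mem_product] at h1
      refine mem_coe.mpr (mem_filter.mpr ⟨by simp only [mem_product]; tauto, ?_⟩)
      change m₁ • (x.1.1 - x.2.1) = m₂ • (x.2.2 - x.1.2)
      rw [smul_sub, smul_sub, sub_eq_sub_iff_add_eq_add]
      exact h2.trans (add_comm _ _)
    · simp only [Prod.mk.injEq] at hxy
      exact Prod.ext (Prod.ext hxy.1.1 hxy.2.2) (Prod.ext hxy.1.2 hxy.2.1)
  refine h1.trans ((Nat.pow_le_pow_iff_left (n := 2) (by norm_num)).mp ?_)
  refine (co_sq_le _ _ _ _).trans ?_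
  rw [sq]
  exact Nat.mul_le_mul (co_diff_le A h₁) (co_diff_le A h₂)

theorem three_sq_le (A : Finset G) (m : Fin 3 → ℤ) (hm : ∀ i, m i ≠ 0) (b : G)
    (T : Finset (Fin 3 → G)) (hT : ∀ x ∈ T, (∀ i, x i ∈ A) ∧ ∑ i, m i • x i = b) :
    T.card ^ 2 ≤ addEnergy A A * A.card := by
  have h1 : T.card ≤ co (A ×ˢ A) A (fun p => m 0 • p.1 + m 1 • p.2) (fun z => b - m 2 • z) := by
    refine card_le_card_of_injOn (fun x => ((x 0, x 1), x 2)) (fun x hx => ?_)
      fun x _ y _ hxy => ?_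
    · obtain ⟨h1, h2⟩ := hT x hx
      refine mem_coe.mpr (mem_filter.mpr ⟨by simp [h1], ?_⟩)
      rw [Fin.sum_univ_three] at h2
      exact eq_sub_of_add_eq h2
    · simp only [Prod.mk.injEq] at hxy
      funext i
      fin_cases i
      exacts [hxy.1.1, hxy.1.2, hxy.2]
  refine (Nat.pow_le_pow_left h1 2).trans ((co_sq_le _ _ _ _).trans ?_)
  exact Nat.mul_le_mul (co_lin_le A (hm 0) (hm 1))
    (co_inj _ _ fun x y hxy => smul_right_injective G (hm 2) (sub_right_injective hxy))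

omit [IsAddTorsionFree G] in
theorem many_le (A : Finset G) (ε : ℝ)
    (h3 : ∀ m : Fin 3 → ℤ, (∀ i, m i ≠ 0) → ∀ b : G, ∀ T : Finset (Fin 3 → G),
      (∀ x ∈ T, (∀ i, x i ∈ A) ∧ ∑ i, m i • x i = b) → (T.card : ℝ) ≤ A.card ^ 2 * ε)
    (r : ℕ) : ∀ m : Fin (r + 3) → ℤ, (∀ i, m i ≠ 0) → ∀ b : G, ∀ T : Finset (Fin (r + 3) → G),
      (∀ x ∈ T, (∀ i, x i ∈ A) ∧ ∑ i, m i • x i = b) → (T.card : ℝ) ≤ A.card ^ (r + 2) * ε := by
  induction r with
  | zero => exact h3
  | succ r ih =>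
    intro m hm b T hT
    rw [card_eq_sum_card_fiberwise (f := fun x => x 0) (t := A) fun x hx => (hT x hx).1 0]
    push_cast
    refine (sum_le_card_nsmul _ _ (A.card ^ (r + 2) * ε) fun a _ => ?_).trans (le_of_eq ?_)
    · have hinj : Set.InjOn (fun x : Fin (r + 1 + 3) → G => (Fin.tail x : Fin (r + 3) → G))
          (T.filter fun x => x 0 = a) := by
        intro x hx y hy hxy
        have h1 := (mem_filter.mp (mem_coe.mp hx)).2
        have h2 := (mem_filter.mp (mem_coe.mp hy)).2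
        funext i
        refine Fin.cases (h1.trans h2.symm) (fun j => ?_) i
        exact congrFun hxy j
      rw [← card_image_of_injOn hinj]
      refine ih (Fin.tail m) (fun i => hm _) (b - m 0 • a) _ fun y hy => ?_
      obtain ⟨x, hx, rfl⟩ := mem_image.mp hy
      obtain ⟨h1, h2⟩ := mem_filter.mp hx
      refine ⟨fun i => (hT x h1).1 _, ?_⟩
      have h4 := (hT x h1).2
      rw [Fin.sum_univ_succ, h2] at h4
      exact eq_sub_of_add_eq' h4
    · rw [nsmul_eq_mul]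
      ring

theorem eventually_log (c : ℝ) (hc : 0 < c) (N₀ : ℕ) : ∃ n₀ : ℕ, ∀ n : ℕ, n₀ ≤ n →
    N₀ ≤ n ∧ 0 < n ∧
      Real.log (60 * 6291456 ^ 4) + 1 + 74 * Real.log n ^ (c / 2) ≤ Real.log n ^ c := by
  have h1 := (Real.tendsto_log_atTop.comp tendsto_natCast_atTop_atTop).eventually
    (eventually_quad hc (Real.log (60 * 6291456 ^ 4) + 1) 74)
  exact eventually_atTop.mp ((eventually_ge_atTop N₀).and ((eventually_gt_atTop 0).and h1))

theorem energy_le {k N₀ : ℕ} {c : ℝ} (h : RB k c N₀) (hc : 0 < c) (hk : 2 ≤ k) (A : Finset G)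
    (hA : ∀ a d : G, d ≠ 0 → ¬ ∀ i : ℕ, i < k → a + i • d ∈ A) (hN : N₀ ≤ A.card)
    (hn : 0 < A.card)
    (hl : Real.log (60 * 6291456 ^ 4) + 1 + 74 * Real.log A.card ^ (c / 2) ≤
      Real.log A.card ^ c) :
    (addEnergy A A : ℝ) ≤ A.card ^ 3 * Real.exp (-(Real.log A.card ^ (c / 2))) ^ 2 := by
  by_contra hE
  push Not at hE
  set n : ℝ := (A.card : ℝ) with hn'
  have hn0 : 0 < n := by rw [hn']; exact_mod_cast hn
  have hu : 0 ≤ Real.log n := Real.log_natCast_nonneg _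
  set w : ℝ := Real.log n ^ (c / 2) with hw
  have hw0 : 0 ≤ w := by rw [hw]; positivity
  set L : ℝ := Real.exp (2 * w) with hL
  have hL1 : 1 ≤ L := Real.one_le_exp (by linarith)
  have hLw : L * Real.exp (-w) ^ 2 = 1 := by
    rw [hL, sq, ← Real.exp_add, ← Real.exp_add, ← Real.exp_zero]
    congr 1
    ring
  obtain ⟨B, hBA, h1, h2⟩ := P015.R2.H74.bsg_energy A (card_pos.mp hn) L hL1 (by
    rw [← hn']
    calc n ^ 3 = L * (n ^ 3 * Real.exp (-w) ^ 2) := by rw [mul_left_comm, hLw, mul_one]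
      _ ≤ _ := by gcongr)
  have h3 := card_le_of_model h hk B (fun a d hd hh => hA a d hd fun i hi => hBA (hh i hi))
    (4 * (2 • B - 2 • B).card + A.card) (hN.trans (Nat.le_add_left _ _)) (by omega)
  have h4 := h2 2 2
  rw [← hn'] at h1 h4
  set N : ℝ := ((4 * (2 • B - 2 • B).card + A.card : ℕ) : ℝ) with hN'
  have hN1 : N = 4 * ((2 • B - 2 • B).card : ℝ) + n := by rw [hN']; push_cast; rfl
  have hN2 : n ≤ N := by rw [hN1]; exact le_add_of_nonneg_left (by positivity)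
  have hP : (1 : ℝ) ≤ (6291456 * L ^ 9) ^ (2 + 2) :=
    one_le_pow₀ (by nlinarith [one_le_pow₀ (n := 9) hL1])
  have hN3 : N ≤ 5 * (6291456 * L ^ 9) ^ (2 + 2) * n := by rw [hN1]; nlinarith
  have h5 : Real.exp (-(Real.log N ^ c)) ≤ Real.exp (-(Real.log n ^ c)) := by
    have : Real.log n ≤ Real.log N := Real.log_le_log hn0 hN2
    gcongr
  have h6 : n ≤ 12 * L * (5 * (6291456 * L ^ 9) ^ (2 + 2) * n * Real.exp (-(Real.log n ^ c))) := by
    refine h1.trans (mul_le_mul_of_nonneg_left (h3.trans ?_) (by positivity))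
    gcongr
  have h7 : 12 * L * (5 * (6291456 * L ^ 9) ^ (2 + 2) * n * Real.exp (-(Real.log n ^ c))) =
      n * Real.exp (Real.log (60 * 6291456 ^ 4) + 74 * w - Real.log n ^ c) := by
    rw [sub_eq_add_neg, Real.exp_add, Real.exp_add, Real.exp_log (by norm_num),
      show 74 * w = (37 : ℕ) * (2 * w) by push_cast; ring, Real.exp_nat_mul, ← hL]
    ring
  rw [h7] at h6
  have h8 : Real.exp (Real.log (60 * 6291456 ^ 4) + 74 * w - Real.log n ^ c) < 1 :=
    Real.exp_lt_one_iff.mpr (by linarith)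
  nlinarith

omit [DecidableEq G] in
theorem linear_of {k N₀ : ℕ} {c : ℝ} (h : RB k c N₀) (hc : 0 < c) (hk : 2 ≤ k) (A : Finset G)
    (hA : ∀ a d : G, d ≠ 0 → ¬ ∀ i : ℕ, i < k → a + i • d ∈ A) (hN : N₀ ≤ A.card)
    (hn : 0 < A.card)
    (hl : Real.log (60 * 6291456 ^ 4) + 1 + 74 * Real.log A.card ^ (c / 2) ≤
      Real.log A.card ^ c) :
    (∀ s : ℕ, 3 ≤ s → ∀ m : Fin s → ℤ, (∀ i, m i ≠ 0) → ∀ b : G,
      (Set.ncard {x : Fin s → G | (∀ i, x i ∈ A) ∧ ∑ i, m i • x i = b} : ℝ) ≤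
        A.card ^ (s - 1) * Real.exp (-(Real.log A.card ^ (c / 2)))) ∧
    ∀ m₁ m₂ : ℤ, m₁ ≠ 0 → m₂ ≠ 0 → A.card * Real.exp (Real.log A.card ^ (c / 2)) ≤
      Set.ncard {z : G | ∃ x ∈ A, ∃ y ∈ A, z = m₁ • x + m₂ • y} := by
  classical
  have hE := energy_le h hc hk A hA hN hn hl
  have hn0 : (0 : ℝ) < A.card := by exact_mod_cast hn
  set ε := Real.exp (-(Real.log A.card ^ (c / 2))) with hε
  have hε0 : 0 < ε := Real.exp_pos _
  refine ⟨fun s hs m hm b => ?_, fun m₁ m₂ h₁ h₂ => ?_⟩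
  · obtain ⟨r, rfl⟩ := Nat.exists_eq_add_of_le' hs
    have hfin : Set.Finite {x : Fin (r + 3) → G | (∀ i, x i ∈ A) ∧ ∑ i, m i • x i = b} :=
      (Fintype.piFinset fun _ => A).finite_toSet.subset fun x hx =>
        mem_coe.mpr (Fintype.mem_piFinset.mpr hx.1)
    rw [Set.ncard_eq_toFinset_card _ hfin]
    refine many_le A ε (fun m hm b T hT => ?_) r m hm b _ fun x hx => hfin.mem_toFinset.mp hx
    have h1 : ((T.card ^ 2 : ℕ) : ℝ) ≤ (addEnergy A A * A.card : ℕ) := by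
      exact_mod_cast three_sq_le A m hm b T hT
    push_cast at h1
    refine le_of_sq_le_sq ?_ (by positivity)
    refine h1.trans ((mul_le_mul_of_nonneg_right hE hn0.le).trans (le_of_eq ?_))
    ring
  · have h1 : {z : G | ∃ x ∈ A, ∃ y ∈ A, z = m₁ • x + m₂ • y} =
        ((A ×ˢ A).image fun p => m₁ • p.1 + m₂ • p.2 : Finset G) := by
      ext z
      simp only [Set.mem_ofPred_eq, coe_image, Set.mem_image, mem_coe, mem_product, Prod.exists]
      constructor
      · rintro ⟨x, hx, y, hy, rfl⟩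
        exact ⟨x, y, ⟨hx, hy⟩, rfl⟩
      · rintro ⟨x, y, ⟨hx, hy⟩, rfl⟩
        exact ⟨x, hx, y, hy, rfl⟩
    rw [h1, Set.ncard_coe_finset]
    have h2 := (sq_le_image_mul_co (A ×ˢ A) fun p => m₁ • p.1 + m₂ • p.2).trans
      (Nat.mul_le_mul_left _ (co_lin_le A h₁ h₂))
    rw [card_product] at h2
    set S : ℕ := ((A ×ˢ A).image fun p => m₁ • p.1 + m₂ • p.2).card
    have h3 : ((A.card : ℝ) * A.card) ^ 2 ≤ S * addEnergy A A := by exact_mod_cast h2
    have h4 : ε ≤ 1 := Real.exp_le_one_iff.mpr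
      (neg_nonpos.mpr (Real.rpow_nonneg (Real.log_natCast_nonneg _) _))
    have h5 : Real.exp (Real.log A.card ^ (c / 2)) * ε = 1 := by
      rw [hε, ← Real.exp_add, add_neg_cancel, Real.exp_zero]
    have h6 : (A.card : ℝ) ^ 3 * A.card ≤ A.card ^ 3 * (S * ε) := by
      have h7 : (S : ℝ) * addEnergy A A ≤ S * (A.card ^ 3 * ε) := by
        refine mul_le_mul_of_nonneg_left (hE.trans ?_) (by positivity)
        gcongr
        nlinarith
      nlinarith
    have h7 := le_of_mul_le_mul_left h6 (by positivity)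
    calc (A.card : ℝ) * Real.exp (Real.log A.card ^ (c / 2))
        ≤ S * ε * Real.exp (Real.log A.card ^ (c / 2)) := by gcongr
      _ = S := by rw [mul_assoc, mul_comm ε, h5, mul_one]

end Vale.Agent.N057G
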