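import Vale.Agent.N057G.Lattice

/-!
# Sets of ideals of a number field with divergent sum of reciprocal norms
-/

open Finset Filter NumberField NumberField.mixedEmbedding

namespace Vale.Agent.N057G

variable (K : Type*) [Field K] [NumberField K]

/-- Every principal ideal has a generator whose coordinates are as small as its norm allows. -/
theorem exists_small_generator : ∃ C : ℝ, 0 ≤ C ∧ ∀ x : 𝓞 K, x ≠ 0 → ∃ y : 𝓞 K,
    Ideal.span {y} = Ideal.span {x} ∧
    ‖(RingOfIntegers.basis K).equivFun y‖ ^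
        Fintype.card (Module.Free.ChooseBasisIndex ℤ (𝓞 K)) ≤
      C * Ideal.absNorm (Ideal.span {x}) := by
  classical
  obtain ⟨C₀, hC₀⟩ := isBounded_iff_forall_norm_le.mp (fundamentalCone.isBounded_normLeOne K)
  let T := LinearMap.toContinuousLinearMap (latticeBasis K).equivFun.toLinearMap
  have hd : Fintype.card (Module.Free.ChooseBasisIndex ℤ (𝓞 K)) = Module.finrank ℚ K := by
    rw [← RingOfIntegers.rank, Module.finrank_eq_card_chooseBasisIndex]
  have hd0 : Module.finrank ℚ K ≠ 0 := Module.finrank_pos.ne'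
  refine ⟨(‖T‖ * |C₀|) ^ Module.finrank ℚ K, by positivity, fun x hx => ?_⟩
  have hn : mixedEmbedding.norm (mixedEmbedding K (x : K)) = Ideal.absNorm (Ideal.span {x}) := by
    rw [norm_eq_norm, Ideal.absNorm_span_singleton, ← Algebra.coe_norm_int]
    simp
  have hn0 : (0 : ℝ) < Ideal.absNorm (Ideal.span {x}) := by
    have : Ideal.absNorm (Ideal.span {x}) ≠ 0 := by
      rw [Ne, Ideal.absNorm_eq_zero_iff, Ideal.span_singleton_eq_bot]
      exact hx
    positivity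
  obtain ⟨u, hu⟩ := fundamentalCone.exists_unit_smul_mem (hn ▸ hn0.ne')
  have hy : u • mixedEmbedding K (x : K) = mixedEmbedding K ((u * x : 𝓞 K) : K) :=
    unit_smul_eq_iff_mul_eq.mpr rfl
  refine ⟨u * x, Ideal.span_singleton_mul_left_unit u.isUnit x, ?_⟩
  set n : ℝ := (Ideal.absNorm (Ideal.span {x}) : ℝ) with hn'
  set s : ℝ := n ^ ((Module.finrank ℚ K : ℝ)⁻¹) with hs
  have hs0 : 0 < s := by rw [hs]; positivity
  have hsn : s ^ Module.finrank ℚ K = n := Real.rpow_inv_natCast_pow hn0.le hd0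
  have h1 : ‖s⁻¹ • u • mixedEmbedding K (x : K)‖ ≤ C₀ := by
    refine hC₀ _ ⟨fundamentalCone.smul_mem_of_mem hu (inv_ne_zero hs0.ne'), ?_⟩
    change mixedEmbedding.norm _ ≤ 1
    rw [mixedEmbedding.norm_smul, norm_unit_smul, hn, abs_of_pos (inv_pos.mpr hs0), inv_pow, hsn,
      inv_mul_cancel₀ hn0.ne']
  rw [_root_.norm_smul, Real.norm_of_nonneg (inv_pos.mpr hs0).le, inv_mul_le_iff₀ hs0, hy] at h1
  have h2 : ‖(RingOfIntegers.basis K).equivFun (u * x)‖ ≤
      ‖T (mixedEmbedding K ((u * x : 𝓞 K) : K))‖ := by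
    refine (pi_norm_le_iff_of_nonneg (norm_nonneg _)).mpr fun i => ?_
    refine le_trans (le_of_eq ?_) (norm_le_pi_norm _ i)
    have h3 : T (mixedEmbedding K ((u * x : 𝓞 K) : K)) i =
        ((RingOfIntegers.basis K).equivFun (u * x) i : ℤ) := by
      change (latticeBasis K).repr _ i = _
      rw [latticeBasis_repr_apply, RingOfIntegers.coe_eq_algebraMap, integralBasis_repr_apply]
      simp
    rw [h3, Int.norm_cast_real]
  have h3 : ‖(RingOfIntegers.basis K).equivFun (u * x)‖ ≤ ‖T‖ * |C₀| * s := by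
    refine h2.trans ((T.le_opNorm _).trans ?_)
    rw [mul_assoc, mul_comm _ s]
    exact mul_le_mul_of_nonneg_left
      (h1.trans (mul_le_mul_of_nonneg_left (le_abs_self _) hs0.le)) (norm_nonneg _)
  rw [hd, ← hsn, ← mul_pow]
  gcongr

theorem exists_class (S : Set (Ideal (𝓞 K)))
    (hS : ¬ Summable fun I : S => (1 : ℝ) / Ideal.absNorm (I : Ideal (𝓞 K))) :
    ∃ J : Ideal (𝓞 K), J ≠ ⊥ ∧ ((∀ I ∈ S, I.IsPrincipal) → J = ⊤) ∧
      ¬ Summable fun I : {I ∈ S | ∃ x ≠ 0, I * J = Ideal.span {x}} =>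
        (1 : ℝ) / Ideal.absNorm (I : Ideal (𝓞 K)) := by
  classical
  obtain ⟨J, hJ0, hJ1, hJ⟩ : ∃ J : ClassGroup (𝓞 K) → Ideal (𝓞 K), (∀ κ, J κ ≠ ⊥) ∧
      (∀ κ, (∀ I ∈ S, I.IsPrincipal) → J κ = ⊤) ∧
      ∀ I ∈ S, I ≠ ⊥ → ∃ κ, ∃ x ≠ 0, I * J κ = Ideal.span {x} := by
    by_cases hP : ∀ I ∈ S, I.IsPrincipal
    · refine ⟨fun _ => ⊤, fun _ => top_ne_bot, fun _ _ => rfl, fun I hI h0 => ⟨1, ?_⟩⟩
      obtain ⟨x, rfl⟩ := hP I hI
      exact ⟨x, fun hx => h0 (by simp [hx]), Ideal.mul_top _⟩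
    · choose J hJ using ClassGroup.mk0_surjective (R := 𝓞 K)
      refine ⟨fun κ => J κ, fun κ => nonZeroDivisors.coe_ne_zero _, fun _ h => absurd h hP,
        fun I _ h0 => ⟨(ClassGroup.mk0 ⟨I, mem_nonZeroDivisors_of_ne_zero h0⟩)⁻¹, ?_⟩⟩
      exact (ClassGroup.mk0_eq_mk0_inv_iff (I := ⟨I, mem_nonZeroDivisors_of_ne_zero h0⟩)).mp
        (by rw [hJ, inv_inv])
  by_contra hn
  push Not at hn
  have h1 := fun κ => (summable_subtype_iff_indicator
    (f := fun I : Ideal (𝓞 K) => (1 : ℝ) / Ideal.absNorm I)).mp (hn _ (hJ0 κ) (hJ1 κ))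
  refine hS ((summable_subtype_iff_indicator
    (f := fun I : Ideal (𝓞 K) => (1 : ℝ) / Ideal.absNorm I)).mpr ?_)
  refine Summable.of_nonneg_of_le (fun I => Set.indicator_nonneg (fun _ _ => by positivity) _)
    (fun I => ?_) (summable_sum (s := univ) fun κ _ => h1 κ)
  have h2 : ∀ κ, 0 ≤ Set.indicator {I ∈ S | ∃ x ≠ 0, I * J κ = Ideal.span {x}}
      (fun I : Ideal (𝓞 K) => (1 : ℝ) / Ideal.absNorm I) I :=
    fun κ => Set.indicator_nonneg (fun _ _ => by positivity) _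
  by_cases hI : I ∈ S
  · by_cases h0 : I = ⊥
    · rw [Set.indicator_of_mem hI, h0, Ideal.absNorm_bot, Nat.cast_zero, div_zero, ← h0]
      exact sum_nonneg fun κ _ => h2 κ
    · obtain ⟨κ, hκ⟩ := hJ I hI h0
      refine le_trans (le_of_eq ?_) (single_le_sum (fun κ _ => h2 κ) (mem_univ κ))
      rw [Set.indicator_of_mem hI, Set.indicator_of_mem (by exact ⟨hI, hκ⟩)]
  · rw [Set.indicator_of_notMem hI]
    exact sum_nonneg fun κ _ => h2 κ

theorem field_ap (h : ∀ k : ℕ, 3 ≤ k → ∃ c : ℝ, 0 < c ∧ ∃ N₀ : ℕ, RB k c N₀)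
    (S : Set (Ideal (𝓞 K)))
    (hS : ¬ Summable fun I : S => (1 : ℝ) / Ideal.absNorm (I : Ideal (𝓞 K))) :
    ∃ J : Ideal (𝓞 K), J ≠ ⊥ ∧ ((∀ I ∈ S, I.IsPrincipal) → J = ⊤) ∧
      ∀ k : ℕ, 3 ≤ k → ∀ v : 𝓞 K, v ≠ 0 → ∃ a : 𝓞 K, ∃ t : ℕ, 0 < t ∧
        ∃ I : Fin k → Ideal (𝓞 K), Function.Injective I ∧
          ∀ i, I i ∈ S ∧ I i * J = Ideal.span {a + ((i : ℕ) * t : ℕ) * v} := by
  classical
  obtain ⟨J, hJ0, hJ1, hJ⟩ := exists_class K S hS
  refine ⟨J, hJ0, hJ1, fun k hk v hv => ?_⟩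
  obtain ⟨c, hc, N₀, hR⟩ := h k hk
  obtain ⟨C, hC0, hC⟩ := exists_small_generator K
  set S' := {I ∈ S | ∃ x ≠ 0, I * J = Ideal.span {x}} with hS'
  set e := (RingOfIntegers.basis K).equivFun with he
  set d := Fintype.card (Module.Free.ChooseBasisIndex ℤ (𝓞 K)) with hd
  have h1 : ∀ I : S', ∃ y : 𝓞 K, y ≠ 0 ∧ I * J = Ideal.span {y} ∧
      ‖e y‖ ^ d ≤ C * Ideal.absNorm J * Ideal.absNorm (I : Ideal (𝓞 K)) := by
    rintro ⟨I, -, x, hx, hI⟩
    obtain ⟨y, hy, hy'⟩ := hC x hx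
    refine ⟨y, ?_, hI.trans hy.symm, hy'.trans (le_of_eq ?_)⟩
    · rintro rfl
      exact hx (Ideal.span_singleton_eq_bot.mp (by simpa using hy.symm))
    · change _ = C * Ideal.absNorm J * Ideal.absNorm I
      rw [← hI, map_mul]
      push_cast
      ring
  choose g hg0 hg hgn using h1
  have hginj : Function.Injective g := fun I I' hI =>
    Subtype.ext (mul_right_cancel₀ hJ0 (by rw [hg I, hg I', hI]))
  obtain ⟨a, t, ht, ha⟩ := lattice_ap hR hc (Set.range fun I => e (g I)) (fun hs => hJ (by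
    have h2 := (hs.comp_injective (i := Set.rangeFactorization fun I => e (g I))
      (Set.rangeFactorization_injective.mpr (e.injective.comp hginj))).mul_left
      (C * Ideal.absNorm J)
    refine Summable.of_nonneg_of_le (fun I => by positivity) (fun I => ?_) h2
    have h3 : 0 < ‖e (g I)‖ ^ d := pow_pos (norm_pos_iff.mpr (by simpa using hg0 I)) _
    have h4 := hgn I
    have h5 : (0 : ℝ) < Ideal.absNorm (I : Ideal (𝓞 K)) := by
      refine lt_of_not_ge fun h5 => ?_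
      have : C * Ideal.absNorm J * Ideal.absNorm (I : Ideal (𝓞 K)) ≤ 0 :=
        mul_nonpos_of_nonneg_of_nonpos (by positivity) h5
      linarith
    change _ ≤ C * Ideal.absNorm J * (Real.exp (Real.log ‖e (g I)‖ ^ (c / 2)) / ‖e (g I)‖ ^ d)
    have h6 : 1 ≤ Real.exp (Real.log ‖e (g I)‖ ^ (c / 2)) := by
      refine Real.one_le_exp (Real.rpow_nonneg (Real.log_nonneg ?_) _)
      obtain ⟨i, hi⟩ := Function.ne_iff.mp (show e (g I) ≠ 0 by simpa using hg0 I)
      refine le_trans ?_ (norm_le_pi_norm _ i)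
      rw [Int.norm_eq_abs]
      exact_mod_cast Int.one_le_abs hi
    rw [← mul_div_assoc, div_le_div_iff₀ h5 h3, one_mul]
    exact h4.trans (mul_le_mul_of_nonneg_right
      (le_mul_of_one_le_right (by positivity) h6) h5.le))) (e v)
  have h2 : ∀ i : Fin k, ∃ I : S', g I = e.symm a + ((i : ℕ) * t : ℕ) * v := by
    intro i
    obtain ⟨I, hI⟩ := ha i i.2
    refine ⟨I, e.injective ?_⟩
    rw [← nsmul_eq_mul, map_add, map_nsmul, LinearEquiv.apply_symm_apply]
    exact hI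
  choose I hI using h2
  refine ⟨e.symm a, t, ht, fun i => I i, fun i j hij => ?_, fun i => ⟨(I i).2.1, hI i ▸ hg (I i)⟩⟩
  have h3 := hI i
  rw [Subtype.ext hij, hI j] at h3
  have h4 := Nat.cast_injective (mul_right_cancel₀ hv (add_left_cancel h3))
  exact Fin.ext (Nat.eq_of_mul_eq_mul_right ht h4).symm

end Vale.Agent.N057G
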