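import Vale.Agent.N057G.Base

/-!
# Weighted reciprocal sums in `ℕ` and in `ℤ^d`; the extremal reciprocal sum is attained
-/

open Finset Filter

namespace Vale.Agent.N057G

variable {k N₀ : ℕ} {c : ℝ}

theorem nat_weight (h : RB k c N₀) (hc : 0 < c) :
    ∃ C : ℝ, ∀ A : Finset ℕ, (∀ a d : ℕ, 0 < d → ¬ ∀ i : ℕ, i < k → a + i * d ∈ A) →
      ∑ a ∈ A, Real.exp (Real.log a ^ (c / 2)) / a ≤ C := by
  refine ⟨2 * ∑' j, wt c N₀ j, fun A hA => ?_⟩
  rw [← sum_erase (s := A) (a := 0) (by simp)]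
  have := dyadic (N₀ := N₀) hc (fun a : ℕ => (a : ℝ)) (A.erase 0) 1 2 (by norm_num)
    (fun a ha => by exact_mod_cast Nat.pos_of_ne_zero (mem_erase.mp ha).1)
    (fun j F' hF' hs => by
      have h1 := h.le_rho (2 ^ (j + 1)) F' (fun a ha => mem_Icc.mpr
        ⟨Nat.pos_of_ne_zero (mem_erase.mp (hF' ha)).1, by exact_mod_cast (hs a ha).le⟩)
        (fun a d hd hh => hA a d hd fun i hi => (mem_erase.mp (hF' (hh i hi))).2)
      refine h1.trans (le_of_eq ?_)
      push_cast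
      ring)
  simpa using this

theorem lattice_weight {ι : Type*} [Fintype ι] (h : RB k c N₀) (hc : 0 < c) (v : ι → ℤ) :
    ∃ C : ℝ, ∀ A : Finset (ι → ℤ),
      (∀ a : ι → ℤ, ∀ t : ℕ, 0 < t → ¬ ∀ i : ℕ, i < k → a + (i * t) • v ∈ A) →
      ∑ a ∈ A, Real.exp (Real.log ‖a‖ ^ (c / 2)) / ‖a‖ ^ Fintype.card ι ≤ C := by
  classical
  obtain ⟨V, hV⟩ := exists_nat_ge ‖v‖
  refine ⟨(5 + 4 * V) ^ Fintype.card ι * ∑' j, wt c N₀ j +
    Real.exp (Real.log ‖(0 : ι → ℤ)‖ ^ (c / 2)) / ‖(0 : ι → ℤ)‖ ^ Fintype.card ι,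
    fun A hA => ?_⟩
  have h0 : ∑ a ∈ A, Real.exp (Real.log ‖a‖ ^ (c / 2)) / ‖a‖ ^ Fintype.card ι ≤
      ∑ a ∈ A.erase 0, Real.exp (Real.log ‖a‖ ^ (c / 2)) / ‖a‖ ^ Fintype.card ι +
      Real.exp (Real.log ‖(0 : ι → ℤ)‖ ^ (c / 2)) / ‖(0 : ι → ℤ)‖ ^ Fintype.card ι := by
    by_cases h0 : (0 : ι → ℤ) ∈ A
    · rw [sum_erase_add _ _ h0]
    · rw [erase_eq_of_notMem h0]
      exact le_add_of_nonneg_right (by positivity)
  refine h0.trans (add_le_add_left ?_ _)
  refine dyadic hc (fun a : ι → ℤ => ‖a‖) (A.erase 0) _ _ (by positivity) (fun a ha => ?_)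
    fun j F' hF' hs => ?_
  · obtain ⟨i, hi⟩ := Function.ne_iff.mp (mem_erase.mp ha).1
    refine le_trans ?_ (norm_le_pi_norm a i)
    rw [Int.norm_eq_abs]
    exact_mod_cast Int.one_le_abs hi
  · set R : ℕ := 2 ^ (j + 1) * (1 + V) with hR
    have h1 := slice h v F' (Fintype.piFinset fun _ : ι => Icc (-(R : ℤ)) R) (2 ^ (j + 1))
      (by positivity) (fun a t ht hh => hA a t ht fun i hi => (mem_erase.mp (hF' (hh i hi))).2)
      (fun a ha l hl => by
        refine Fintype.mem_piFinset.mpr fun i => mem_Icc.mpr (abs_le.mp ?_)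
        have h2 := norm_le_pi_norm (a - l • v) i
        rw [Int.norm_eq_abs] at h2
        have h3 : ‖a - l • v‖ ≤ R := by
          refine (norm_sub_le _ _).trans ?_
          have h4 : ‖l • v‖ ≤ l * ‖v‖ := norm_nsmul_le
          have h5 : (l : ℝ) ≤ 2 ^ (j + 1) := by exact_mod_cast hl
          have h6 := hs a ha
          have h7 : (l : ℝ) * ‖v‖ ≤ 2 ^ (j + 1) * V := by gcongr
          rw [hR]
          push_cast
          nlinarith
        exact_mod_cast h2.trans h3)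
    refine h1.trans (mul_le_mul_of_nonneg_right ?_ (rho_nonneg _ _ _))
    rw [Fintype.card_piFinset, prod_const, card_univ, Int.card_Icc, ← mul_pow]
    have h2 : ((R : ℤ) + 1 - -(R : ℤ)).toNat = 2 * R + 1 := by omega
    rw [h2]
    push_cast
    gcongr
    rw [hR]
    push_cast
    have h3 : (1 : ℝ) ≤ 2 ^ j := one_le_pow₀ (by norm_num)
    rw [pow_succ]
    nlinarith

theorem lattice_ap {ι : Type*} [Fintype ι] (h : RB k c N₀) (hc : 0 < c) (A : Set (ι → ℤ))
    (hA : ¬ Summable fun a : A =>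
      Real.exp (Real.log ‖(a : ι → ℤ)‖ ^ (c / 2)) / ‖(a : ι → ℤ)‖ ^ Fintype.card ι) (v : ι → ℤ) :
    ∃ a : ι → ℤ, ∃ t : ℕ, 0 < t ∧ ∀ i : ℕ, i < k → a + (i * t) • v ∈ A := by
  classical
  by_contra hn
  obtain ⟨C, hC⟩ := lattice_weight h hc v
  refine hA (summable_of_sum_le (c := C) (fun a => by positivity) fun u => ?_)
  have := hC (u.map (Function.Embedding.subtype _)) fun a t ht hh =>
    hn ⟨a, t, ht, fun i hi => by
      obtain ⟨b, -, hb⟩ := mem_map.mp (hh i hi)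
      exact hb ▸ b.2⟩
  rwa [sum_map] at this

theorem tail_le (hc : 0 < c) {C : ℝ} {A : Set ℕ}
    (hC : ∀ F : Finset ℕ, (F : Set ℕ) ⊆ A → ∑ a ∈ F, Real.exp (Real.log a ^ c) / a ≤ C)
    (X : ℕ) (F : Finset ℕ) (hF : ∀ a ∈ F, X ≤ a) :
    ∑ a ∈ F, A.indicator (fun a => (1 : ℝ) / a) a ≤ C / Real.exp (Real.log X ^ c) := by
  classical
  rw [le_div_iff₀ (Real.exp_pos _), sum_mul]
  refine le_trans ?_ (hC (F.filter (· ∈ A)) fun a ha => (mem_filter.mp (mem_coe.mp ha)).2)
  rw [sum_filter]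
  refine sum_le_sum fun a ha => ?_
  by_cases haA : a ∈ A
  · rw [Set.indicator_of_mem haA, if_pos haA, div_mul_eq_mul_div, one_mul]
    have h1 : (X : ℝ) ≤ a := by exact_mod_cast hF a ha
    have h2 : 0 ≤ Real.log X := Real.log_natCast_nonneg X
    have h3 : Real.log X ≤ Real.log a := by
      rcases Nat.eq_zero_or_pos X with rfl | hX
      · simpa using Real.log_natCast_nonneg a
      · exact Real.log_le_log (by exact_mod_cast hX) h1
    gcongr
  · rw [Set.indicator_of_notMem haA, if_neg haA, zero_mul]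

/-- Among the sets without `k`-term progressions one has the largest reciprocal sum. -/
theorem exists_extremal (h : RB k c N₀) (hc : 0 < c) (hk : 0 < k) :
    ∃ A₀ : Set ℕ, (∀ a ∈ A₀, 0 < a) ∧ (∀ a d : ℕ, 0 < d → ¬ ∀ i : ℕ, i < k → a + i * d ∈ A₀) ∧
      ∃ s₀ : ℝ, HasSum (fun a : A₀ => (1 : ℝ) / (a : ℕ)) s₀ ∧
      ∀ A : Set ℕ, (∀ a ∈ A, 0 < a) → (∀ a d : ℕ, 0 < d → ¬ ∀ i : ℕ, i < k → a + i * d ∈ A) →
        ∃ s ≤ s₀, HasSum (fun a : A => (1 : ℝ) / (a : ℕ)) s := by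
  classical
  obtain ⟨C, hC⟩ := nat_weight h hc
  let S : (ℕ → Bool) → Set ℕ := fun f => {a | f a = true}
  let K : Set (ℕ → Bool) :=
    {f | f 0 = false ∧ ∀ a d : ℕ, 0 < d → ¬ ∀ i : ℕ, i < k → f (a + i * d) = true}
  have hKc : IsClosed K := by
    refine IsClosed.inter (isClosed_eq (f := fun f : ℕ → Bool => f 0) (continuous_apply 0)
      continuous_const) ?_
    change IsClosed {f : ℕ → Bool | ∀ a d : ℕ, 0 < d → ¬ ∀ i : ℕ, i < k → f (a + i * d) = true}
    simp only [Set.ofPred_forall]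
    refine isClosed_iInter fun a => isClosed_iInter fun d => isClosed_iInter fun _ => ?_
    refine IsOpen.isClosed_compl (s := {f : ℕ → Bool | ∀ i : ℕ, i < k → f (a + i * d) = true}) ?_
    have : {f : ℕ → Bool | ∀ i : ℕ, i < k → f (a + i * d) = true} =
        ⋂ i ∈ range k, (fun f : ℕ → Bool => f (a + i * d)) ⁻¹' {true} := by
      ext f
      simp
    rw [this]
    exact isOpen_biInter_finset fun i _ =>
      (isOpen_discrete _).preimage (continuous_apply _)
  let g : (ℕ → Bool) → ℕ → ℝ := fun f => (S f).indicator (fun a => (1 : ℝ) / a)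
  have hg0 : ∀ f a, 0 ≤ g f a := fun f a => Set.indicator_nonneg (fun a _ => by positivity) a
  have hT : ∀ f ∈ K, ∀ X : ℕ, ∀ F : Finset ℕ, (∀ a ∈ F, X ≤ a) →
      ∑ a ∈ F, g f a ≤ C / Real.exp (Real.log X ^ (c / 2)) := fun f hf =>
    tail_le (half_pos hc) fun F hF => hC F fun a d hd hh => hf.2 a d hd fun i hi => hF (hh i hi)
  have hS : ∀ f ∈ K, Summable (g f) := fun f hf =>
    summable_of_sum_le (hg0 f) fun u => hT f hf 0 u fun a _ => Nat.zero_le a
  have hU : TendstoUniformlyOn (fun X f => ∑ a ∈ range X, g f a) (fun f => ∑' a, g f a)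
      atTop K := by
    rw [Metric.tendstoUniformlyOn_iff]
    intro ε hε
    have h1 : Tendsto (fun X : ℕ => C / Real.exp (Real.log X ^ (c / 2))) atTop (nhds 0) :=
      tendsto_const_nhds.div_atTop (Real.tendsto_exp_atTop.comp
        ((tendsto_rpow_atTop (half_pos hc)).comp
          (Real.tendsto_log_atTop.comp tendsto_natCast_atTop_atTop)))
    filter_upwards [h1.eventually (gt_mem_nhds hε)] with X hX f hf
    rw [← (hS f hf).sum_add_tsum_nat_add X, Real.dist_eq, add_sub_cancel_left,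
      abs_of_nonneg (tsum_nonneg fun a => hg0 f _)]
    refine lt_of_le_of_lt (Real.tsum_le_of_sum_le (fun a => hg0 f _) fun u => ?_) hX
    have := hT f hf X (u.map (addRightEmbedding X)) fun a ha => by
      obtain ⟨b, -, rfl⟩ := mem_map.mp ha
      exact Nat.le_add_left _ _
    rwa [sum_map] at this
  have hcont : ContinuousOn (fun f => ∑' a, g f a) K := by
    refine hU.continuousOn (Frequently.of_forall fun X => Continuous.continuousOn ?_)
    refine continuous_finsetSum _ fun a _ => ?_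
    have h1 : (fun f => g f a) =
        (fun b : Bool => if b = true then (1 : ℝ) / a else 0) ∘ fun f : ℕ → Bool => f a := by
      ext f
      simp [g, S, Set.indicator_apply]
    rw [h1]
    exact continuous_of_discreteTopology.comp (continuous_apply a)
  obtain ⟨f₀, hf₀, hmax⟩ := hKc.isCompact.exists_isMaxOn
    ⟨fun _ => false, rfl, fun a d _ hh => by simpa using hh 0 hk⟩ hcont
  refine ⟨S f₀, fun a ha => Nat.pos_of_ne_zero ?_, hf₀.2, ∑' a, g f₀ a,
    hasSum_subtype_iff_indicator.mpr (hS f₀ hf₀).hasSum, fun A hA hf => ?_⟩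
  · rintro rfl
    have h1 : f₀ 0 = true := ha
    rw [hf₀.1] at h1
    exact absurd h1 (by simp)
  · have hfK : (fun a => decide (a ∈ A)) ∈ K :=
      ⟨by simpa using fun h0 => (hA 0 h0).false, fun a d hd hh =>
        hf a d hd fun i hi => by simpa using hh i hi⟩
    refine ⟨_, hmax hfK, ?_⟩
    have h1 : S (fun a => decide (a ∈ A)) = A := by
      ext a
      simp [S]
    have h2 := (hS _ hfK).hasSum
    refine (hasSum_subtype_iff_indicator (f := fun a : ℕ => (1 : ℝ) / a)).mpr ?_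
    simpa only [g, h1] using h2

end Vale.Agent.N057G
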