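import Mathlib

/-!
# Behrend's sets: the exponent `c` cannot exceed `1/2` for three-term progressions
-/

open Finset Filter

namespace Vale.Agent.N057G

theorem eventually_sqrt {c : ℝ} (hc : 1 / 2 < c) :
    ∀ᶠ u : ℝ in atTop, 64 ≤ u ∧ 1 + 4 * √u ≤ (u / 2) ^ c := by
  have h1 := ((tendsto_rpow_atTop (sub_pos.mpr hc)).comp
    (tendsto_id.atTop_div_const (r := (2 : ℝ)) two_pos)).eventually_ge_atTop 10
  filter_upwards [h1, eventually_ge_atTop 64] with u hu hu0
  refine ⟨hu0, ?_⟩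
  have h2 : (u / 2) ^ c = √(u / 2) * (u / 2) ^ (c - 1 / 2) := by
    rw [Real.sqrt_eq_rpow, ← Real.rpow_add (by linarith)]
    congr 1
    ring
  have h3 : √u / 2 ≤ √(u / 2) := by
    refine Real.le_sqrt_of_sq_le ?_
    rw [div_pow, Real.sq_sqrt (by linarith)]
    linarith
  have h4 : 8 ≤ √u := Real.le_sqrt_of_sq_le (by linarith)
  have h5 : 10 ≤ (u / 2) ^ (c - 1 / 2) := hu
  rw [h2]
  nlinarith

theorem exists_behrend (N : ℕ) : ∃ B ⊆ range N,
    (N : ℝ) * Real.exp (-4 * √(Real.log N)) ≤ B.card ∧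
      ∀ x ∈ B, ∀ y ∈ B, ∀ z ∈ B, x + z = y + y → x = y := by
  obtain ⟨B, h1, h2, h3⟩ := rothNumberNat_spec N
  exact ⟨B, h1, h2 ▸ Behrend.roth_lower_bound, fun x hx y hy z hz h => h3 hx hy hz h⟩

theorem weight_sharp {c : ℝ} (hc : 1 / 2 < c) :
    ∃ A : Set ℕ, (∀ a d : ℕ, 0 < d → ¬ ∀ i : ℕ, i < 3 → a + i * d ∈ A) ∧
      ¬ Summable fun a : A => Real.exp (Real.log (a : ℕ) ^ c) / (a : ℕ) := by
  classical
  choose B hB hBc hB3 using exists_behrend
  have hB' : ∀ N, ∀ x ∈ B N, x < N := fun N x hx => mem_range.mp (hB N hx)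
  set A : Set ℕ := {a | ∃ j : ℕ, ∃ x ∈ B (3 ^ j), a = 2 * 3 ^ j + x} with hA
  refine ⟨A, fun a d hd hh => ?_, fun hs => ?_⟩
  · obtain ⟨i, x, hx, h0⟩ := hh 0 (by norm_num)
    obtain ⟨j, y, hy, h1⟩ := hh 1 (by norm_num)
    obtain ⟨l, z, hz, h2⟩ := hh 2 (by norm_num)
    have a1 := hB' _ _ hx
    have a2 := hB' _ _ hy
    have a3 := hB' _ _ hz
    have key : ∀ {p q : ℕ}, p < q → 3 * 3 ^ p ≤ 3 ^ q := fun hpq => by
      rw [← pow_succ']
      exact Nat.pow_le_pow_right (by norm_num) hpq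
    have hjl : j = l := by
      rcases lt_trichotomy j l with h | h | h
      · have := key h
        omega
      · exact h
      · have := key h
        omega
    subst hjl
    have hij : i = j := by
      rcases lt_trichotomy i j with h | h | h
      · have := key h
        omega
      · exact h
      · have := key h
        omega
    subst hij
    have := hB3 _ x hx y hy z hz (by omega)
    omega
  · have h1 := (summable_subtype_iff_indicator
      (f := fun a : ℕ => Real.exp (Real.log a ^ c) / a)).mp hs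
    obtain ⟨s, hs⟩ := summable_iff_vanishing_norm.mp h1 (1 / 3) (by norm_num)
    have ht : Tendsto (fun j : ℕ => ((3 ^ j : ℕ) : ℝ)) atTop atTop :=
      tendsto_natCast_atTop_atTop.comp (tendsto_pow_atTop_atTop_of_one_lt (by norm_num))
    obtain ⟨j, ⟨hj0, hj⟩, hjs⟩ := (((Real.tendsto_log_atTop.comp ht).eventually
      (eventually_sqrt hc)).and (eventually_gt_atTop (s.sup id))).exists
    have h2 := hs ((B (3 ^ j)).map (addLeftEmbedding (2 * 3 ^ j))) (disjoint_left.mpr fun a ha ha' => by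
      obtain ⟨x, -, rfl⟩ := mem_map.mp ha
      have h3 : 2 * 3 ^ j + x ≤ s.sup id := le_sup (f := id) ha'
      have h4 : j < 3 ^ j := Nat.lt_pow_self (by norm_num)
      omega)
    rw [sum_map] at h2
    set M : ℝ := ((3 ^ j : ℕ) : ℝ) with hM
    have hM0 : 0 < M := by rw [hM]; positivity
    change 64 ≤ Real.log M at hj0
    change 1 + 4 * √(Real.log M) ≤ (Real.log M / 2) ^ c at hj
    have h3 : ∀ x ∈ B (3 ^ j), Real.exp (4 * √(Real.log M)) / (3 * M) ≤
        A.indicator (fun a : ℕ => Real.exp (Real.log a ^ c) / a)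
          (addLeftEmbedding (2 * 3 ^ j) x) := by
      intro x hx
      rw [Set.indicator_of_mem (by exact ⟨j, x, hx, rfl⟩)]
      have h4 : (x : ℝ) < M := by rw [hM]; exact_mod_cast hB' _ _ hx
      have h5 : ((addLeftEmbedding (2 * 3 ^ j) x : ℕ) : ℝ) = 2 * M + x := by
        rw [hM, addLeftEmbedding_apply]; push_cast; rfl
      have h6 : (0 : ℝ) ≤ x := Nat.cast_nonneg x
      rw [h5]
      have h7 : Real.log M ≤ Real.log (2 * M + x) := Real.log_le_log hM0 (by linarith)
      have h8 : (Real.log M / 2) ^ c ≤ Real.log (2 * M + x) ^ c :=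
        Real.rpow_le_rpow (by linarith) (by linarith) (by linarith)
      gcongr <;> linarith
    have h4 := card_nsmul_le_sum _ _ _ h3
    have h5 := hBc (3 ^ j)
    rw [← hM] at h5
    rw [nsmul_eq_mul] at h4
    have h6 := (mul_le_mul_of_nonneg_right h5 (by positivity)).trans (h4.trans (le_abs_self _))
    have h7 : M * Real.exp (-4 * √(Real.log M)) * (Real.exp (4 * √(Real.log M)) / (3 * M)) =
        1 / 3 := by
      rw [neg_mul, Real.exp_neg]
      field_simp
    rw [h7] at h6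
    exact absurd h2 (not_lt.mpr h6)

theorem sumset_sharp {c : ℝ} (hc : 1 / 2 < c) (n₀ : ℕ) :
    ∃ A : Finset ℤ, n₀ ≤ A.card ∧ (∀ a d : ℤ, d ≠ 0 → ¬ ∀ i : ℕ, i < 3 → a + i • d ∈ A) ∧
      (Set.ncard {z : ℤ | ∃ x ∈ A, ∃ y ∈ A, z = x + y} : ℝ) <
        A.card * Real.exp (Real.log A.card ^ c) := by
  have ht := Real.tendsto_log_atTop.comp tendsto_natCast_atTop_atTop
  obtain ⟨N, ⟨⟨h0, h1⟩, h2⟩, hN⟩ := (((ht.eventually (eventually_sqrt hc)).and
    (ht.eventually_ge_atTop (2 * n₀))).and (eventually_gt_atTop 0)).exists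
  obtain ⟨B, hB, hBc, hB3⟩ := exists_behrend N
  change 64 ≤ Real.log N at h0
  change 1 + 4 * √(Real.log N) ≤ (Real.log N / 2) ^ c at h1
  change 2 * (n₀ : ℝ) ≤ Real.log N at h2
  have hN0 : (0 : ℝ) < N := by exact_mod_cast hN
  have h3 : 8 ≤ √(Real.log N) := Real.le_sqrt_of_sq_le (by linarith)
  have h4 := Real.mul_self_sqrt (x := Real.log N) (by linarith)
  have h5 : Real.exp (Real.log N / 2) ≤ B.card := by
    refine le_trans ?_ hBc
    nth_rw 2 [← Real.exp_log hN0]
    rw [← Real.exp_add, Real.exp_le_exp]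
    nlinarith
  have h6 : Real.log N / 2 ≤ Real.log B.card :=
    (Real.le_log_iff_exp_le ((Real.exp_pos _).trans_le h5)).mpr h5
  refine ⟨B.map Nat.castEmbedding, ?_, fun a d hd hh => ?_, ?_⟩
  · rw [card_map]
    have := Real.add_one_le_exp (Real.log N / 2)
    exact_mod_cast (show (n₀ : ℝ) ≤ B.card by linarith)
  · obtain ⟨x, hx, hx'⟩ := mem_map.mp (hh 0 (by norm_num))
    obtain ⟨y, hy, hy'⟩ := mem_map.mp (hh 1 (by norm_num))
    obtain ⟨z, hz, hz'⟩ := mem_map.mp (hh 2 (by norm_num))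
    simp only [Nat.castEmbedding_apply, nsmul_eq_mul] at hx' hy' hz'
    have := hB3 x hx y hy z hz (by omega)
    omega
  · rw [card_map]
    have h7 : {z : ℤ | ∃ x ∈ B.map Nat.castEmbedding, ∃ y ∈ B.map Nat.castEmbedding, z = x + y} ⊆
        (Ico (0 : ℤ) (2 * N) : Finset ℤ) := by
      rintro _ ⟨_, hx', _, hy', rfl⟩
      obtain ⟨x, hx, rfl⟩ := mem_map.mp hx'
      obtain ⟨y, hy, rfl⟩ := mem_map.mp hy'
      have a1 := mem_range.mp (hB hx)
      have a2 := mem_range.mp (hB hy)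
      simp only [Nat.castEmbedding_apply, coe_Ico, Set.mem_Ico]
      omega
    have h8 := Set.ncard_le_ncard h7 (finite_toSet _)
    rw [Set.ncard_coe_finset, Int.card_Ico] at h8
    have h9 : (2 * (N : ℤ) - 0).toNat = 2 * N := by omega
    rw [h9] at h8
    refine lt_of_le_of_lt (show _ ≤ ((2 * N : ℕ) : ℝ) by exact_mod_cast h8) ?_
    have h10 : (Real.log N / 2) ^ c ≤ Real.log B.card ^ c :=
      Real.rpow_le_rpow (by linarith) h6 (by linarith)
    refine lt_of_lt_of_le ?_ (mul_le_mul hBc (Real.exp_le_exp.mpr (h1.trans h10))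
      (Real.exp_pos _).le (Nat.cast_nonneg _))
    rw [mul_assoc, ← Real.exp_add, show -4 * √(Real.log N) + (1 + 4 * √(Real.log N)) = 1 by ring]
    have := Real.exp_one_gt_d9
    push_cast
    nlinarith

end Vale.Agent.N057G
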